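import Vale.Agent.P284.H206.Bog.Fin3
import Vale.Agent.P284.H998.Z6

/-!
# P284 (helper206), module BOG, unconditional
-/

noncomputable section

namespace Vale.Agent.P284.H206

/-- **BOG.**  On a smooth projective manifold a line bundle `L` with a morphism `L → Ω^R` which is
decomposable at the points of a dense set has `κ(L) ≤ R`. -/
theorem bogStmt : BogStmt := bog_of Vale.Agent.P284.H998.zStmt

end Vale.Agent.P284.H206
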