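import Vale.Agent.P284.H248.Defs
import Vale.Agent.P284.H998.ZS

/-!
# P284 (helper206), module BOG: statement

Bogomolov's theorem for generically decomposable forms: on a smooth projective manifold a line bundle
`L` with a morphism `L → Ω^R` which is decomposable at the points of a dense set has `κ(L) ≤ R`.
-/

open scoped Manifold ContDiff Topology
open Filter

noncomputable section

namespace Vale.Agent.P284.H206

open Vale.Agent.P272.K Vale.Agent.P284.H248 Vale.Agent.P284.H998

/-- The form is `U • det (Db)` near `x`, with `b` a submersion to `ℂᴿ` and `U x ≠ 0`. -/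
def DecAt {n R : ℕ} {X : Type} [TopologicalSpace X] [ChartedSpace (Cm n) X] {L : LineBundle n X}
    (φ : Mor L R) (x : X) : Prop :=
  ∃ (i : L.ι) (e : Chart n X), At e x ∧ x ∈ L.U i ∧ ∃ (U : Cm n → ℂ) (b : Cm n → Cm R),
    AnalyticAt ℂ U (e x) ∧ U (e x) ≠ 0 ∧ AnalyticAt ℂ b (e x) ∧
    Function.Surjective (fderiv ℂ b (e x)) ∧
    ∀ᶠ z in 𝓝 (e x), ∀ ξ : Fin R → Cm n,
      φ.form i e z ξ = U z * (Matrix.of fun i j => fderiv ℂ b z (ξ j) i).det

/-- **BOG** -/
def BogStmt : Prop :=
  ∀ (n R : ℕ) (X : Type) [TopologicalSpace X] [T2Space X] [CompactSpace X]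
    [ChartedSpace (Cm n) X] [IsManifold 𝓘(ℂ, Cm n) ω X] (ι : Type) [Fintype ι] (_ : PJ n X ι)
    (L : LineBundle n X) (φ : Mor L R) (_ : Dense {x | DecAt φ x}), ¬ IitakaGE L (R + 1)

end Vale.Agent.P284.H206
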